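import Vale.Agent.P038.H465.Base

/-! Blocks B1, B2 of helper465's plan. -/

namespace Vale.Agent.P038.H465.H153

open Finset Vale.Agent.P038.H465

attribute [local instance] Classical.propDecidable

variable {V : Type} [Fintype V]

theorem gmem_cl {D : V → V → Prop} {S : Finset V} {u : V} :
    u ∈ cl D S ↔ ∃ x ∈ S, R D x u := by simp [cl]

theorem sub_cl {D : V → V → Prop} (S : Finset V) : S ⊆ cl D S :=
  fun x hx => gmem_cl.mpr ⟨x, hx, Or.inl rfl⟩

theorem cl_mono {D : V → V → Prop} {S T : Finset V} (h : S ⊆ T) : cl D S ⊆ cl D T := by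
  intro x hx
  obtain ⟨y, hy, hr⟩ := gmem_cl.mp hx
  exact gmem_cl.mpr ⟨y, h hy, hr⟩

theorem exists_min : StExistsMin V := by
  intro D hD
  let f : (V → V → Prop) → ℕ := fun E => (univ.filter (fun p : V × V => E p.1 p.2)).card
  have hex : ∃ n, ∃ E : V → V → Prop, CE E ∧ f E = n := ⟨_, D, hD, rfl⟩
  obtain ⟨E, hE, hfE⟩ := Nat.find_spec hex
  refine ⟨E, hE, ?_⟩
  intro E' hsub hE' u v huv
  have h1 : f E ≤ f E' := by
    rw [hfE]
    exact Nat.find_min' hex ⟨E', hE', rfl⟩
  have h2 : univ.filter (fun p : V × V => E' p.1 p.2) ⊆ univ.filter (fun p : V × V => E p.1 p.2) := by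
    intro p hp
    rw [Finset.mem_filter] at hp ⊢
    exact ⟨hp.1, hsub _ _ hp.2⟩
  have h3 := Finset.eq_of_subset_of_card_le h2 h1
  have h4 : ((u, v) : V × V) ∈ univ.filter (fun p : V × V => E p.1 p.2) := by
    rw [Finset.mem_filter]; exact ⟨Finset.mem_univ _, huv⟩
  rw [← h3, Finset.mem_filter] at h4
  exact h4.2

theorem strictG : StG V := by
  intro D hD X hX
  by_contra hneg
  have hneg : h D X ≤ 0 := not_lt.mp hneg
  obtain ⟨⟨hOri, hpos⟩, hmin⟩ := hD
  set L := cl D X \ X with hLdef
  have hL : L.Nonempty := by
    rw [Finset.sdiff_nonempty]; exact hX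
  let d : Finset V → ℤ := fun T => ((cl D T \ X).card : ℤ) - 2 * (T.card : ℤ)
  have hdL : 0 ≤ d L := by
    have e1 : cl D (cl D X) = X ∪ (cl D L \ X) := by
      ext z
      rw [Finset.mem_union, Finset.mem_sdiff]
      constructor
      · intro hz
        by_cases hzX : z ∈ X
        · exact Or.inl hzX
        · right
          refine ⟨?_, hzX⟩
          obtain ⟨y, hy, hyz⟩ := gmem_cl.mp hz
          by_cases hyX : y ∈ X
          · exact sub_cl L (Finset.mem_sdiff.mpr ⟨gmem_cl.mpr ⟨y, hyX, hyz⟩, hzX⟩)
          · exact gmem_cl.mpr ⟨y, Finset.mem_sdiff.mpr ⟨hy, hyX⟩, hyz⟩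
      · rintro (hz | ⟨hz, _⟩)
        · exact sub_cl _ (sub_cl _ hz)
        · exact cl_mono Finset.sdiff_subset hz
    have e2 : (cl D (cl D X)).card = X.card + (cl D L \ X).card := by
      rw [e1, Finset.card_union_of_disjoint Finset.disjoint_sdiff]
    have e3 : (cl D X).card = X.card + L.card := by
      rw [hLdef, Finset.card_sdiff_of_subset (sub_cl X)]
      have := Finset.card_le_card (sub_cl (D := D) X)
      omega
    unfold h at hneg
    rw [e2, e3] at hneg
    push_cast at hneg
    simp only [d]
    linarith
  obtain ⟨T, hT, hTmin⟩ := Finset.exists_min_image L.ssubsets d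
    ⟨∅, Finset.mem_ssubsets.mpr (Finset.empty_ssubset.mpr hL)⟩
  rw [Finset.mem_ssubsets] at hT
  have hd0 : d ∅ = 0 := by
    have : cl D (∅ : Finset V) = ∅ := by
      ext z; simp [cl]
    simp only [d, this]; simp
  have hstep : ∀ S ⊆ L \ T, d T ≤ d (T ∪ S) := by
    intro S hS
    by_cases hTS : T ∪ S = L
    · rw [hTS]
      have := hTmin ∅ (Finset.mem_ssubsets.mpr (Finset.empty_ssubset.mpr hL))
      linarith
    · apply hTmin
      rw [Finset.mem_ssubsets]
      refine lt_of_le_of_ne ?_ hTS
      exact Finset.union_subset hT.1 (hS.trans Finset.sdiff_subset)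
  -- the smaller graph
  let D' : V → V → Prop := fun u v => D u v ∧ (u ∈ X → v ∈ X ∪ T)
  have hRsub : ∀ u v, R D' u v → R D u v := by
    rintro u v (h | h)
    · exact Or.inl h
    · exact Or.inr h.1
  have hclsub : ∀ S, cl D' S ⊆ cl D S := by
    intro S z hz
    obtain ⟨y, hy, hyz⟩ := gmem_cl.mp hz
    exact gmem_cl.mpr ⟨y, hy, hRsub _ _ hyz⟩
  have hCE : CE D' := by
    refine ⟨⟨fun v hv => hOri.1 v hv.1, fun u v huv hvu => hOri.2 u v huv.1 hvu.1⟩, ?_⟩
    intro v
    have hv := hpos v
    by_cases hvX : v ∈ X
    · -- v in X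
      set Dv := cl D {v} \ (X ∪ T) with hDv
      have hDvL : Dv ⊆ L \ T := by
        intro z hz
        rw [hDv, Finset.mem_sdiff, Finset.mem_union, not_or] at hz
        rw [Finset.mem_sdiff, hLdef, Finset.mem_sdiff]
        refine ⟨⟨cl_mono (Finset.singleton_subset_iff.mpr hvX) hz.1, hz.2.1⟩, hz.2.2⟩
      have hs := hstep Dv hDvL
      set Ev := cl D Dv \ (cl D T ∪ X) with hEv
      have c1 : (cl D (T ∪ Dv) \ X).card = (cl D T \ X).card + Ev.card := by
        rw [← Finset.card_union_of_disjoint]
        · congr 1
          ext z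
          simp only [hEv, Finset.mem_sdiff, Finset.mem_union]
          constructor
          · rintro ⟨hz, hzX⟩
            by_cases hzT : z ∈ cl D T
            · exact Or.inl ⟨hzT, hzX⟩
            · right
              obtain ⟨y, hy, hyz⟩ := gmem_cl.mp hz
              rcases Finset.mem_union.mp hy with hy | hy
              · exact absurd (gmem_cl.mpr ⟨y, hy, hyz⟩) hzT
              · exact ⟨gmem_cl.mpr ⟨y, hy, hyz⟩, fun h => h.elim hzT hzX⟩
          · rintro (⟨h1, h2⟩ | ⟨h1, h2⟩)
            · exact ⟨cl_mono Finset.subset_union_left h1, h2⟩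
            · exact ⟨cl_mono Finset.subset_union_right h1, fun h => h2 (Or.inr h)⟩
        · rw [Finset.disjoint_left]
          intro z h1 h2
          rw [hEv, Finset.mem_sdiff] at h2
          exact h2.2 (Finset.mem_union_left _ (Finset.mem_sdiff.mp h1).1)
      have c2 : (T ∪ Dv).card = T.card + Dv.card := by
        rw [Finset.card_union_of_disjoint]
        rw [Finset.disjoint_left]
        intro z h1 h2
        rw [hDv, Finset.mem_sdiff] at h2
        exact h2.2 (Finset.mem_union_right _ h1)
      have c3 : (cl D' {v}).card + Dv.card = (cl D {v}).card := by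
        rw [hDv]
        have e : cl D' {v} = cl D {v} ∩ (X ∪ T) := by
          ext z
          rw [Finset.mem_inter, gmem_cl, gmem_cl]
          constructor
          · rintro ⟨y, hy, hyz⟩
            rw [Finset.mem_singleton] at hy
            subst hy
            refine ⟨⟨y, Finset.mem_singleton_self _, hRsub _ _ hyz⟩, ?_⟩
            rcases hyz with h | h
            · exact h ▸ Finset.mem_union_left _ hvX
            · exact h.2 hvX
          · rintro ⟨⟨y, hy, hyz⟩, hz⟩
            rw [Finset.mem_singleton] at hy
            subst hy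
            refine ⟨y, Finset.mem_singleton_self _, ?_⟩
            rcases hyz with h | h
            · exact Or.inl h
            · exact Or.inr ⟨h, fun _ => hz⟩
        rw [e]
        exact Finset.card_inter_add_card_sdiff _ _
      have c4 : (cl D' (cl D' {v})).card + Ev.card ≤ (cl D (cl D {v})).card := by
        rw [← Finset.card_union_of_disjoint]
        · apply Finset.card_le_card
          apply Finset.union_subset
          · exact (hclsub _).trans (cl_mono (hclsub _))
          · intro z hz
            rw [hEv, Finset.mem_sdiff] at hz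
            exact cl_mono Finset.sdiff_subset hz.1
        · rw [Finset.disjoint_left]
          intro z h1 h2
          rw [hEv, Finset.mem_sdiff, Finset.mem_union, not_or] at h2
          obtain ⟨y, hy, hyz⟩ := gmem_cl.mp h1
          -- y in X ∪ T
          have hyXT : y ∈ X ∪ T := by
            obtain ⟨x, hx, hxy⟩ := gmem_cl.mp hy
            rw [Finset.mem_singleton] at hx
            subst hx
            rcases hxy with h | h
            · exact h ▸ Finset.mem_union_left _ hvX
            · exact h.2 hvX
          rcases hyz with h | h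
          · subst h
            rcases Finset.mem_union.mp hyXT with h | h
            · exact h2.2.2 h
            · exact h2.2.1 (sub_cl _ h)
          · by_cases hyX : y ∈ X
            · rcases Finset.mem_union.mp (h.2 hyX) with h | h
              · exact h2.2.2 h
              · exact h2.2.1 (sub_cl _ h)
            · have hyT : y ∈ T := (Finset.mem_union.mp hyXT).resolve_left hyX
              exact h2.2.1 (gmem_cl.mpr ⟨y, hyT, Or.inr h.1⟩)
      simp only [d, c1, c2] at hs
      unfold h at hv ⊢
      push_cast at hs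
      have c3' : ((cl D' {v}).card : ℤ) + Dv.card = (cl D {v}).card := by exact_mod_cast c3
      have c4' : ((cl D' (cl D' {v})).card : ℤ) + Ev.card ≤ (cl D (cl D {v})).card := by
        exact_mod_cast c4
      linarith
    · have e : cl D' {v} = cl D {v} := by
        ext z
        rw [gmem_cl, gmem_cl]
        constructor
        · rintro ⟨y, hy, hyz⟩; exact ⟨y, hy, hRsub _ _ hyz⟩
        · rintro ⟨y, hy, hyz⟩
          refine ⟨y, hy, ?_⟩
          rw [Finset.mem_singleton] at hy
          subst hy
          rcases hyz with h | h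
          · exact Or.inl h
          · exact Or.inr ⟨h, fun hc => absurd hc hvX⟩
      have c4 : (cl D' (cl D' {v})).card ≤ (cl D (cl D {v})).card := by
        rw [e]; exact Finset.card_le_card (hclsub _)
      unfold h at hv ⊢
      have c4' : ((cl D' (cl D' {v})).card : ℤ) ≤ (cl D (cl D {v})).card := by exact_mod_cast c4
      rw [e] at c4' ⊢
      linarith
  have hsub := hmin D' (fun u v h => h.1) hCE
  obtain ⟨l, hlL, hlT⟩ := Finset.exists_of_ssubset hT
  rw [hLdef, Finset.mem_sdiff] at hlL
  obtain ⟨x, hx, hxl⟩ := gmem_cl.mp hlL.1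
  rcases hxl with h | h
  · exact hlL.2 (h ▸ hx)
  · have := (hsub x l h).2 hx
    rcases Finset.mem_union.mp this with h | h
    · exact hlL.2 h
    · exact hlT h

end Vale.Agent.P038.H465.H153
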