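import Mathlib

/-! The linear algebra square (helper465, note 22696). -/

namespace P038.H153

open Finset Classical

noncomputable section

variable {V : Type} [Fintype V]

/-- the field of rational functions in the variables `X (x,y)` -/
abbrev KK (V : Type) := FractionRing (MvPolynomial (V × V) ℚ)

/-- generic entry, supported on `r` -/
def th (r : V → V → Prop) (x y : V) : KK V :=
  if r x y then algebraMap (MvPolynomial (V × V) ℚ) (KK V) (MvPolynomial.X (x, y)) else 0

omit [Fintype V] in
theorem gen {r : V → V → Prop} {ι : Type} [Fintype ι] (c : ι → V) (hc : Function.Injective c)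
    (σ : ι → V) (hσ : Function.Injective σ) (hr : ∀ i, r (c i) (σ i)) (v : ι → KK V)
    (h : ∀ i, ∑ j, th r (c j) (σ i) * v j = 0) : v = 0 := by
  classical
  let Pm : Matrix ι ι (MvPolynomial (V × V) ℚ) := fun i j =>
    if r (c j) (σ i) then MvPolynomial.X (c j, σ i) else 0
  have hdet : Pm.det ≠ 0 := by
    intro h0
    let e : V × V → ℚ := fun p => if ∃ j, c j = p.1 ∧ σ j = p.2 then 1 else 0
    have h1 : (MvPolynomial.eval e) Pm.det = 0 := by rw [h0]; simp
    rw [RingHom.map_det] at h1
    have hP : ∀ i j, Pm i j = if r (c j) (σ i) then MvPolynomial.X (c j, σ i) else 0 :=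
      fun _ _ => rfl
    have he : ∀ i j, e (c j, σ i) = if i = j then 1 else 0 := by
      intro i j
      by_cases hij : i = j
      · subst hij
        simp only [e]
        rw [if_pos ⟨i, rfl, rfl⟩]; simp
      · simp only [e]
        rw [if_neg, if_neg hij]
        rintro ⟨k, hk1, hk2⟩
        exact hij ((hσ hk2).symm.trans (hc hk1))
    have h2 : (MvPolynomial.eval e).mapMatrix Pm = 1 := by
      ext i j
      rw [RingHom.mapMatrix_apply, Matrix.map_apply, hP, Matrix.one_apply]
      by_cases hij : i = j
      · subst hij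
        rw [if_pos (hr i), MvPolynomial.eval_X, he]
      · rw [if_neg hij]
        by_cases hh : r (c j) (σ i)
        · rw [if_pos hh, MvPolynomial.eval_X, he, if_neg hij]
        · rw [if_neg hh, map_zero]
    rw [h2] at h1
    simp at h1
  let Km : Matrix ι ι (KK V) := fun i j => th r (c j) (σ i)
  have hK : Km = (algebraMap (MvPolynomial (V × V) ℚ) (KK V)).mapMatrix Pm := by
    ext i j
    rw [RingHom.mapMatrix_apply, Matrix.map_apply]
    change th r (c j) (σ i) = algebraMap _ _ (if r (c j) (σ i) then MvPolynomial.X (c j, σ i) else 0)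
    unfold th
    by_cases hh : r (c j) (σ i)
    · rw [if_pos hh, if_pos hh]
    · rw [if_neg hh, if_neg hh, map_zero]
  have hKdet : Km.det ≠ 0 := by
    rw [hK, ← RingHom.map_det]
    intro h0
    exact hdet ((IsFractionRing.injective (MvPolynomial (V × V) ℚ) (KK V)) (by rw [h0, map_zero]))
  apply Matrix.eq_zero_of_mulVec_eq_zero hKdet
  ext i
  exact h i

/-- The square lemma. -/
theorem square (r : V → V → Prop) (Ah Eh G H : Finset (V × V))
    (h1 : ∀ a, ∃ σ : V → V, (∀ x y, (a, x) ∈ Ah → (a, y) ∈ Ah → σ x = σ y → x = y) ∧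
      ∀ x, (a, x) ∈ Ah → r x (σ x) ∧ (a, σ x) ∈ H)
    (h2 : ∀ u, ∃ σ : V → V, (∀ x y, (x, u) ∈ Eh → (y, u) ∈ Eh → σ x = σ y → x = y) ∧
      ∀ x, (x, u) ∈ Eh → r x (σ x) ∧ (σ x, u) ∈ H)
    (h3 : ∀ a x b u, (a, x) ∈ Ah → (b, u) ∈ Eh → r b a → r x u → (a, u) ∈ H ∧ (b, x) ∈ G) :
    Ah.card + Eh.card ≤ G.card + H.card := by
  classical
  let M1 : Matrix H Ah (KK V) :=
    Matrix.of fun h p => if p.1.1 = h.1.1 then th r p.1.2 h.1.2 else 0
  let M2 : Matrix Eh H (KK V) :=
    Matrix.of fun e h => if h.1.2 = e.1.2 then th r e.1.1 h.1.1 else 0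
  let N1 : Matrix G Ah (KK V) :=
    Matrix.of fun g p => if p.1.2 = g.1.2 then th r g.1.1 p.1.1 else 0
  let N2 : Matrix Eh G (KK V) :=
    Matrix.of fun e g => if g.1.1 = e.1.1 then th r g.1.2 e.1.2 else 0
  have hcomm : M2 * M1 = N2 * N1 := by
    ext ⟨⟨b, u⟩, he⟩ ⟨⟨a, x⟩, hp⟩
    simp only [Matrix.mul_apply, M1, M2, N1, N2, Matrix.of_apply]
    by_cases hr : r b a ∧ r x u
    · obtain ⟨hH, hG⟩ := h3 a x b u hp he hr.1 hr.2
      rw [Finset.sum_eq_single (⟨(a, u), hH⟩ : H), Finset.sum_eq_single (⟨(b, x), hG⟩ : G)]
      · simp [mul_comm]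
      · rintro ⟨⟨b', x'⟩, hg⟩ - hne
        by_cases e1 : b' = b
        · by_cases e2 : x = x'
          · subst e1 e2; exact absurd rfl hne
          · simp [e2]
        · simp [e1]
      · intro hh; exact absurd (Finset.mem_univ _) hh
      · rintro ⟨⟨a', u'⟩, hg⟩ - hne
        by_cases e1 : u' = u
        · by_cases e2 : a = a'
          · subst e1 e2; exact absurd rfl hne
          · simp [e2]
        · simp [e1]
      · intro hh; exact absurd (Finset.mem_univ _) hh
    · rw [Finset.sum_eq_zero, Finset.sum_eq_zero]
      · rintro ⟨⟨b', x'⟩, hg⟩ -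
        by_cases e1 : b' = b
        · by_cases e2 : x = x'
          · subst e1 e2
            by_cases hb : r b' a
            · have : ¬ r x u := fun hx => hr ⟨hb, hx⟩
              simp [th, this]
            · simp [th, hb]
          · simp [e2]
        · simp [e1]
      · rintro ⟨⟨a', u'⟩, hg⟩ -
        by_cases e1 : u' = u
        · by_cases e2 : a = a'
          · subst e1 e2
            by_cases hb : r b a
            · have : ¬ r x u' := fun hx => hr ⟨hb, hx⟩
              simp [th, this]
            · simp [th, hb]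
          · simp [e2]
        · simp [e1]
  have hM1 : ∀ v : Ah → KK V, M1.mulVec v = 0 → v = 0 := by
    intro v hv
    ext ⟨⟨a, x⟩, hp⟩
    obtain ⟨σ, hσ, hσ2⟩ := h1 a
    let ι := {x : V // (a, x) ∈ Ah}
    have key := gen (r := r) (ι := ι) (fun i => i.1) Subtype.val_injective
      (fun i => σ i.1) (fun i j hij => Subtype.ext (hσ _ _ i.2 j.2 hij))
      (fun i => (hσ2 i.1 i.2).1) (fun i => v ⟨(a, i.1), i.2⟩) (by
        intro i
        have := congrFun hv ⟨(a, σ i.1), (hσ2 i.1 i.2).2⟩
        simp only [Matrix.mulVec, dotProduct, M1, Matrix.of_apply, Pi.zero_apply] at this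
        rw [← this]
        symm
        rw [← Finset.sum_filter_add_sum_filter_not univ (fun p : Ah => p.1.1 = a)]
        rw [Finset.sum_eq_zero (s := univ.filter (fun p : Ah => ¬ p.1.1 = a)), add_zero]
        · refine Finset.sum_bij' (fun p hp => (⟨p.1.2, by
              have h1 := (Finset.mem_filter.mp hp).2
              have h2 := p.2
              rw [← h1]; exact h2⟩ : ι)) (fun i _ => (⟨(a, i.1), i.2⟩ : Ah)) ?_ ?_ ?_ ?_ ?_
          · intro p hp; exact Finset.mem_univ _
          · intro i _; simp
          · intro p hp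
            have h1 := (Finset.mem_filter.mp hp).2
            apply Subtype.ext
            simp [← h1]
          · intro i _; rfl
          · intro p hp
            have h1 := (Finset.mem_filter.mp hp).2
            rw [if_pos h1]
            congr 2
            apply Subtype.ext
            simp [← h1]
        · intro p hp
          rw [if_neg (Finset.mem_filter.mp hp).2, zero_mul])
    exact congrFun key ⟨x, hp⟩
  have hM2 : ∀ v : Eh → KK V, M2.transpose.mulVec v = 0 → v = 0 := by
    intro v hv
    ext ⟨⟨x, u⟩, hp⟩
    obtain ⟨σ, hσ, hσ2⟩ := h2 u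
    let ι := {x : V // (x, u) ∈ Eh}
    have key := gen (r := r) (ι := ι) (fun i => i.1) Subtype.val_injective
      (fun i => σ i.1) (fun i j hij => Subtype.ext (hσ _ _ i.2 j.2 hij))
      (fun i => (hσ2 i.1 i.2).1) (fun i => v ⟨(i.1, u), i.2⟩) (by
        intro i
        have := congrFun hv ⟨(σ i.1, u), (hσ2 i.1 i.2).2⟩
        simp only [Matrix.mulVec, dotProduct, M2, Matrix.of_apply, Matrix.transpose_apply, Pi.zero_apply] at this
        rw [← this]
        symm
        rw [← Finset.sum_filter_add_sum_filter_not univ (fun p : Eh => p.1.2 = u)]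
        rw [Finset.sum_eq_zero (s := univ.filter (fun p : Eh => ¬ p.1.2 = u)), add_zero]
        · refine Finset.sum_bij' (fun p hp => (⟨p.1.1, by
              have h1 := (Finset.mem_filter.mp hp).2
              have h2 := p.2
              rw [← h1]; exact h2⟩ : ι)) (fun i _ => (⟨(i.1, u), i.2⟩ : Eh)) ?_ ?_ ?_ ?_ ?_
          · intro p hp; exact Finset.mem_univ _
          · intro i _; simp
          · intro p hp
            have h1 := (Finset.mem_filter.mp hp).2
            apply Subtype.ext
            simp [← h1]
          · intro i _; rfl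
          · intro p hp
            have h1 := (Finset.mem_filter.mp hp).2
            rw [if_pos h1.symm]
            congr 2
            apply Subtype.ext
            simp [← h1]
        · intro p hp
          rw [if_neg (fun h => (Finset.mem_filter.mp hp).2 h.symm), zero_mul])
    exact congrFun key ⟨x, hp⟩
  -- dimensions
  have d1 : Module.finrank (KK V) (LinearMap.range N1.mulVecLin) +
      Module.finrank (KK V) (LinearMap.ker N1.mulVecLin) = Ah.card := by
    rw [LinearMap.finrank_range_add_finrank_ker]; simp
  have d2 : Module.finrank (KK V) (LinearMap.range N1.mulVecLin) ≤ G.card := by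
    refine (Submodule.finrank_le _).trans (le_of_eq ?_); simp
  have d3 : Module.finrank (KK V) (LinearMap.range M2.mulVecLin) +
      Module.finrank (KK V) (LinearMap.ker M2.mulVecLin) = H.card := by
    rw [LinearMap.finrank_range_add_finrank_ker]; simp
  have d4 : Module.finrank (KK V) (LinearMap.range M2.mulVecLin) = Eh.card := by
    have e1 : M2.rank = M2.transpose.rank := (Matrix.rank_transpose M2).symm
    have e2 : M2.transpose.rank = Eh.card := by
      unfold Matrix.rank
      rw [LinearMap.finrank_range_of_inj]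
      · simp
      · rw [← LinearMap.ker_eq_bot, LinearMap.ker_eq_bot']
        intro v hv
        exact hM2 v (by rw [Matrix.mulVecLin_apply] at hv; exact hv)
    have e3 : M2.rank = Module.finrank (KK V) (LinearMap.range M2.mulVecLin) := rfl
    rw [← e3, e1, e2]
  have d5 : Module.finrank (KK V) (LinearMap.ker N1.mulVecLin) ≤
      Module.finrank (KK V) (LinearMap.ker M2.mulVecLin) := by
    let f : (LinearMap.ker N1.mulVecLin) →ₗ[KK V] (LinearMap.ker M2.mulVecLin) :=
      (M1.mulVecLin.comp (LinearMap.ker N1.mulVecLin).subtype).codRestrict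
        (LinearMap.ker M2.mulVecLin) (by
          rintro ⟨v, hv⟩
          simp only [LinearMap.mem_ker, Matrix.mulVecLin_apply, LinearMap.comp_apply,
            Submodule.subtype_apply] at hv ⊢
          rw [Matrix.mulVec_mulVec, hcomm, ← Matrix.mulVec_mulVec, hv, Matrix.mulVec_zero])
    apply LinearMap.finrank_le_finrank_of_injective (f := f)
    rw [← LinearMap.ker_eq_bot, LinearMap.ker_eq_bot']
    rintro ⟨v, hv⟩ h0
    apply Subtype.ext
    apply hM1 v
    have := congrArg Subtype.val h0
    simpa [f] using this
  omega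

end

end P038.H153
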