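import Vale.Agent.P038.H465.Base
import Vale.Agent.P038.H153.Key

/-! Block D of helper465's plan: StKey from the linear algebra square. -/

namespace Vale.Agent.P038.H465.H153

open Finset Vale.Agent.P038.H465

attribute [local instance] Classical.propDecidable

variable {V : Type} [Fintype V]

theorem mem_cl {D : V → V → Prop} {S : Finset V} {u : V} :
    u ∈ cl D S ↔ ∃ x ∈ S, R D x u := by simp [cl]

theorem mem_er {D : V → V → Prop} {S : Finset V} {z : V} :
    z ∈ er D S ↔ ∀ z', R D z' z → z' ∈ S := by simp [er]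

theorem H1 {D : V → V → Prop} {B U : V → Finset V} (h3 : O3 D B U) (s : Finset V) :
    ∀ S : Finset V, (∀ x ∈ S, ∀ a ∈ s, a ∈ U x) →
      (S.filter (fun x => ∃ a ∈ s, x ∉ B a)).card ≤
        ((cl D S).filter (fun u => ∃ a ∈ s, u ∉ cl D (B a))).card := by
  induction s using Finset.induction_on with
  | empty => intro S _; simp
  | insert b s hb ih =>
    intro S hS
    have ih' := ih S (fun x hx a ha => hS x hx a (Finset.mem_insert_of_mem ha))
    set S2 := S.filter (fun x => ¬ ∃ a ∈ s, x ∉ B a) with hS2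
    have h3' := h3 b S2 (fun x hx => hS x (Finset.mem_filter.mp hx).1 b (Finset.mem_insert_self _ _))
    have e1 : (S.filter (fun x => ∃ a ∈ insert b s, x ∉ B a)).card ≤
        (S.filter (fun x => ∃ a ∈ s, x ∉ B a)).card + (S2 \ B b).card := by
      refine le_trans (Finset.card_le_card ?_) (Finset.card_union_le _ _)
      intro x hx
      rw [Finset.mem_filter] at hx
      obtain ⟨hxS, a, ha, hxa⟩ := hx
      rw [Finset.mem_union]
      by_cases hc : ∃ a ∈ s, x ∉ B a
      · left; exact Finset.mem_filter.mpr ⟨hxS, hc⟩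
      · right
        rw [Finset.mem_sdiff]
        refine ⟨Finset.mem_filter.mpr ⟨hxS, hc⟩, ?_⟩
        rcases Finset.mem_insert.mp ha with rfl | ha
        · exact hxa
        · exact absurd ⟨a, ha, hxa⟩ hc
    have e2 : ((cl D S).filter (fun u => ∃ a ∈ s, u ∉ cl D (B a))).card +
        (cl D S2 \ cl D (B b)).card ≤
        ((cl D S).filter (fun u => ∃ a ∈ insert b s, u ∉ cl D (B a))).card := by
      rw [← Finset.card_union_of_disjoint]
      · apply Finset.card_le_card
        intro u hu
        rw [Finset.mem_union] at hu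
        rw [Finset.mem_filter]
        rcases hu with hu | hu
        · rw [Finset.mem_filter] at hu
          obtain ⟨h1, a, ha, h2⟩ := hu
          exact ⟨h1, a, Finset.mem_insert_of_mem ha, h2⟩
        · rw [Finset.mem_sdiff] at hu
          refine ⟨?_, b, Finset.mem_insert_self _ _, hu.2⟩
          obtain ⟨x, hx, hxu⟩ := mem_cl.mp hu.1
          exact mem_cl.mpr ⟨x, (Finset.mem_filter.mp hx).1, hxu⟩
      · rw [Finset.disjoint_left]
        intro u hu1 hu2
        rw [Finset.mem_filter] at hu1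
        obtain ⟨_, a, ha, hna⟩ := hu1
        obtain ⟨x, hx, hxu⟩ := mem_cl.mp (Finset.mem_sdiff.mp hu2).1
        have hx2 := (Finset.mem_filter.mp hx).2
        apply hna
        refine mem_cl.mpr ⟨x, ?_, hxu⟩
        by_contra hc
        exact hx2 ⟨a, ha, hc⟩
    omega

theorem H2 {D : V → V → Prop} {B U : V → Finset V} (h4 : O4 D B U) (s : Finset V) :
    ∀ S : Finset V, (∀ a ∈ S, ∀ x ∈ s, x ∉ B a) →
      (S.filter (fun a => ∃ x ∈ s, a ∈ U x)).card ≤
        ((cl D S).filter (fun z => ∃ x ∈ s, z ∈ er D (U x))).card := by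
  induction s using Finset.induction_on with
  | empty => intro S _; simp
  | insert b s hb ih =>
    intro S hS
    have ih' := ih S (fun a ha x hx => hS a ha x (Finset.mem_insert_of_mem hx))
    set S2 := S.filter (fun a => ¬ ∃ x ∈ s, a ∈ U x) with hS2
    have h4' := h4 b S2 (fun a ha => hS a (Finset.mem_filter.mp ha).1 b (Finset.mem_insert_self _ _))
    have e1 : (S.filter (fun a => ∃ x ∈ insert b s, a ∈ U x)).card ≤
        (S.filter (fun a => ∃ x ∈ s, a ∈ U x)).card + (S2 ∩ U b).card := by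
      refine le_trans (Finset.card_le_card ?_) (Finset.card_union_le _ _)
      intro a ha
      rw [Finset.mem_filter] at ha
      obtain ⟨haS, x, hx, hxa⟩ := ha
      rw [Finset.mem_union]
      by_cases hc : ∃ x ∈ s, a ∈ U x
      · left; exact Finset.mem_filter.mpr ⟨haS, hc⟩
      · right
        rw [Finset.mem_inter]
        refine ⟨Finset.mem_filter.mpr ⟨haS, hc⟩, ?_⟩
        rcases Finset.mem_insert.mp hx with rfl | hx
        · exact hxa
        · exact absurd ⟨x, hx, hxa⟩ hc
    have e2 : ((cl D S).filter (fun z => ∃ x ∈ s, z ∈ er D (U x))).card +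
        (cl D S2 ∩ er D (U b)).card ≤
        ((cl D S).filter (fun z => ∃ x ∈ insert b s, z ∈ er D (U x))).card := by
      rw [← Finset.card_union_of_disjoint]
      · apply Finset.card_le_card
        intro z hz
        rw [Finset.mem_union] at hz
        rw [Finset.mem_filter]
        rcases hz with hz | hz
        · rw [Finset.mem_filter] at hz
          obtain ⟨h1, x, hx, h2⟩ := hz
          exact ⟨h1, x, Finset.mem_insert_of_mem hx, h2⟩
        · rw [Finset.mem_inter] at hz
          refine ⟨?_, b, Finset.mem_insert_self _ _, hz.2⟩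
          obtain ⟨a, ha, haz⟩ := mem_cl.mp hz.1
          exact mem_cl.mpr ⟨a, (Finset.mem_filter.mp ha).1, haz⟩
      · rw [Finset.disjoint_left]
        intro z hz1 hz2
        rw [Finset.mem_filter] at hz1
        obtain ⟨_, x, hx, hzx⟩ := hz1
        obtain ⟨a, ha, haz⟩ := mem_cl.mp (Finset.mem_inter.mp hz2).1
        exact (Finset.mem_filter.mp ha).2 ⟨x, hx, mem_er.mp hzx a haz⟩
    omega

theorem EB_iff {D : V → V → Prop} {B : V → Finset V} {a u : V} :
    EB D B a u ↔ u ∈ cl D (B a) := by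
  rw [mem_cl]; unfold EB
  exact ⟨fun ⟨x, h1, h2⟩ => ⟨x, h2, h1⟩, fun ⟨x, h1, h2⟩ => ⟨x, h2, h1⟩⟩

/-- Hall on `V` with a relation. -/
theorem hall (S T : V → Prop) (r : V → V → Prop)
    (h : ∀ s : Finset V, (∀ x ∈ s, S x) →
      s.card ≤ (univ.filter (fun u => T u ∧ ∃ x ∈ s, r x u)).card) :
    ∃ σ : V → V, (∀ x y, S x → S y → σ x = σ y → x = y) ∧ ∀ x, S x → r x (σ x) ∧ T (σ x) := by
  let ι := {x : V // S x}
  let t : ι → Finset V := fun x => univ.filter (fun u => T u ∧ r x.1 u)
  have hh : ∀ s : Finset ι, s.card ≤ (s.biUnion t).card := by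
    intro s
    have h1 := h (s.image Subtype.val) (by
      intro x hx
      obtain ⟨y, _, rfl⟩ := Finset.mem_image.mp hx
      exact y.2)
    rw [Finset.card_image_of_injective _ Subtype.val_injective] at h1
    refine h1.trans (Finset.card_le_card ?_)
    intro u hu
    rw [Finset.mem_filter] at hu
    obtain ⟨_, hT, x, hx, hr⟩ := hu
    obtain ⟨y, hy, rfl⟩ := Finset.mem_image.mp hx
    exact Finset.mem_biUnion.mpr ⟨y, hy, Finset.mem_filter.mpr ⟨Finset.mem_univ _, hT, hr⟩⟩
  obtain ⟨f, hf, hft⟩ := (Finset.all_card_le_biUnion_card_iff_exists_injective t).mp hh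
  refine ⟨fun x => if hx : S x then f ⟨x, hx⟩ else x, ?_, ?_⟩
  · intro x y hx hy hxy
    simp only [hx, hy, dif_pos] at hxy
    exact congrArg Subtype.val (hf hxy)
  · intro x hx
    simp only [hx, dif_pos]
    have := (Finset.mem_filter.mp (hft ⟨x, hx⟩)).2
    exact ⟨this.2, this.1⟩

theorem key : StKey V := by
  intro D B U hF h3 h4
  have sq := _root_.P038.H153.square (R D)
    (univ.filter (fun p : V × V => AU D U p.1 p.2 ∧ ¬ AB D B p.1 p.2))
    (univ.filter (fun p : V × V => EU D U p.1 p.2 ∧ ¬ EB D B p.1 p.2))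
    (univ.filter (fun p : V × V => p.1 ∈ U p.2 ∧ ¬ p.2 ∈ B p.1))
    (univ.filter (fun p : V × V => PP D U p.1 p.2 ∧ ¬ QQ D B p.1 p.2)) ?_ ?_ ?_
  · have c1 : ∀ r : V → V → Prop, cnt r = (univ.filter (fun p : V × V => r p.1 p.2)).card :=
      fun _ => rfl
    rw [c1, c1, c1, c1, Nat.add_comm]
    convert sq
  · intro a
    simp only [Finset.mem_filter, Finset.mem_univ, true_and]
    apply hall (fun x => AU D U a x ∧ ¬ AB D B a x) (fun u => PP D U a u ∧ ¬ QQ D B a u) (R D)
    intro S hS
    have key1 := H1 h3 (univ.filter (fun a' => R D a' a)) S (by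
      intro x hx a' ha'
      exact (hS x hx).1 a' (Finset.mem_filter.mp ha').2)
    refine le_trans (Finset.card_le_card ?_) (key1.trans (Finset.card_le_card ?_))
    · intro x hx
      have := (hS x hx).2
      unfold AB at this
      push Not at this
      obtain ⟨a', h1, h2⟩ := this
      exact Finset.mem_filter.mpr
        ⟨hx, a', Finset.mem_filter.mpr ⟨Finset.mem_univ _, h1⟩, h2⟩
    intro u hu
    rw [Finset.mem_filter] at hu
    obtain ⟨hu1, a', ha', hu2⟩ := hu
    obtain ⟨x, hx, hxu⟩ := mem_cl.mp hu1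
    simp only [Finset.mem_filter, Finset.mem_univ, true_and]
    refine ⟨⟨⟨x, hxu, (hS x hx).1⟩, ?_⟩, x, hx, hxu⟩
    intro hQ
    exact hu2 (EB_iff.mp (hQ a' (Finset.mem_filter.mp ha').2))
  · intro u
    simp only [Finset.mem_filter, Finset.mem_univ, true_and]
    apply hall (fun a => EU D U a u ∧ ¬ EB D B a u) (fun a => PP D U a u ∧ ¬ QQ D B a u) (R D)
    intro S hS
    have key2 := H2 h4 (univ.filter (fun x => R D x u)) S (by
      intro a ha x hx hxa
      exact (hS a ha).2 ⟨x, (Finset.mem_filter.mp hx).2, hxa⟩)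
    refine le_trans (Finset.card_le_card ?_) (key2.trans (Finset.card_le_card ?_))
    · intro a ha
      obtain ⟨x, h1, h2⟩ := (hS a ha).1
      exact Finset.mem_filter.mpr
        ⟨ha, x, Finset.mem_filter.mpr ⟨Finset.mem_univ _, h1⟩, h2⟩
    intro z hz
    rw [Finset.mem_filter] at hz
    obtain ⟨hz1, x, hx, hz2⟩ := hz
    obtain ⟨a, ha, haz⟩ := mem_cl.mp hz1
    simp only [Finset.mem_filter, Finset.mem_univ, true_and]
    refine ⟨⟨⟨x, (Finset.mem_filter.mp hx).2, fun a' ha' => mem_er.mp hz2 a' ha'⟩, ?_⟩, a, ha, haz⟩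
    intro hQ
    exact (hS a ha).2 (hQ a haz)
  · intro a x b u hA hE hba hxu
    simp only [Finset.mem_filter, Finset.mem_univ, true_and] at hA hE ⊢
    refine ⟨⟨⟨x, hxu, hA.1⟩, fun hQ => hE.2 (hQ b hba)⟩, hA.1 b hba, fun hxB => hE.2 ⟨x, hxu, hxB⟩⟩

end Vale.Agent.P038.H465.H153
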